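import Vale.Agent.P092.H658.AmenFun
import Vale.Agent.P092.H175.Left

/-!
P092, block T2: the amenability functions on subgroups of `SL_3(ℤ)`.
-/

namespace Vale.Agent.P092.H658

open Vale.Agent.P092.H553

theorem leftEst : LeftEst := fun _ _ _ _ _ _ _ _ h1 h2 h3 h4 h5 h6 h7 h8 =>
  H175.left_est h1 h2 h3 h4 h5 h6 h7 h8

/-- Amenability functions. -/
theorem amen_fun (Γ : Subgroup G3) [DecidableEq Γ] (S : Finset Γ) {ε : ℝ} (hε : 0 < ε) :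
    ∃ (B : Finset Γ) (μ : Γ → Γ → ℝ) (R : ℝ), (∀ b g, 0 ≤ μ b g) ∧
      (∀ b ∉ B, ∀ g, μ b g = 0) ∧ (∀ g, ∑ b ∈ B, μ b g ≤ 1) ∧
      (∀ g, 1 - ε ≤ ∑ b ∈ B, μ b g) ∧
      (∀ s ∈ S, ∀ g : Γ, Reg R (g : G3) →
        ∑ b ∈ B ∪ B.image (fun b => s⁻¹ * b), |μ (s * b) (s * g) - μ b g| ≤ ε) ∧
      (∀ b t : Γ, ∀ δ : ℝ, 0 < δ → ∃ R' : ℝ, ∀ g : Γ, Reg R' (g : G3) →
        |μ b (g * t) - μ b g| ≤ δ) :=
  amen_fun_of leftEst Γ S hε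

end Vale.Agent.P092.H658
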