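import Vale.Agent.P092.H428.Grid
import Vale.Agent.P092.H428.Norm

/-!
P092 (helper658), block T2: assembly of the amenability functions from the estimates on the gauges.
-/

namespace Vale.Agent.P092.H658

open Finset
open Vale.Agent.P092.H428 (grid_shift norm_compare)

section
variable {Γ : Type*} [Group Γ] {w : Γ → ℝ} {f : ℝ → ℝ → Γ → Γ → ℝ}

/-- Unnormalised weights. -/
noncomputable def uu (f : ℝ → ℝ → Γ → Γ → ℝ) (t₁ t₂ : ℝ) (g b : Γ) : ℝ := ((f t₁ t₂ g b) ^ 9)⁻¹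

/-- Normalised weights. -/
noncomputable def be (f : ℝ → ℝ → Γ → Γ → ℝ) (t₁ t₂ : ℝ) (g b : Γ) : ℝ :=
  uu f t₁ t₂ g b / ∑' b', uu f t₁ t₂ g b'

/-- Grid average. -/
noncomputable def nu (f : ℝ → ℝ → Γ → Γ → ℝ) (L h : ℝ) (K : ℕ) (g b : Γ) : ℝ :=
  (∑ i ∈ range K, ∑ j ∈ range K, be f (L + (i : ℤ) * h) (L + (j : ℤ) * h) g b) / (K : ℝ) ^ 2

lemma f_pos (hw : ∀ b, 0 < w b) (lo : ∀ t₁ t₂ g b, Real.exp (-t₁ - t₂) * w b ≤ f t₁ t₂ g b)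
    (t₁ t₂ : ℝ) (g b : Γ) : 0 < f t₁ t₂ g b :=
  lt_of_lt_of_le (mul_pos (Real.exp_pos _) (hw b)) (lo t₁ t₂ g b)

lemma uu_pos (hf : ∀ t₁ t₂ g b, 0 < f t₁ t₂ g b) (t₁ t₂ : ℝ) (g b : Γ) :
    0 < uu f t₁ t₂ g b := inv_pos.2 (pow_pos (hf t₁ t₂ g b) 9)

lemma uu_le (hw : ∀ b, 0 < w b) (lo : ∀ t₁ t₂ g b, Real.exp (-t₁ - t₂) * w b ≤ f t₁ t₂ g b)
    (t₁ t₂ : ℝ) (g b : Γ) :
    uu f t₁ t₂ g b ≤ (Real.exp (t₁ + t₂)) ^ 9 * ((w b) ^ 9)⁻¹ := by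
  have h1 : 0 < Real.exp (-t₁ - t₂) * w b := mul_pos (Real.exp_pos _) (hw b)
  have h2 : ((f t₁ t₂ g b) ^ 9)⁻¹ ≤ ((Real.exp (-t₁ - t₂) * w b) ^ 9)⁻¹ :=
    inv_anti₀ (pow_pos h1 9) (pow_le_pow_left₀ h1.le (lo t₁ t₂ g b) 9)
  refine h2.trans (le_of_eq ?_)
  rw [mul_pow, mul_inv, ← inv_pow, ← Real.exp_neg]
  congr 3
  ring

lemma uu_summable (hw : ∀ b, 0 < w b) (hs : Summable fun b => ((w b) ^ 9)⁻¹)
    (lo : ∀ t₁ t₂ g b, Real.exp (-t₁ - t₂) * w b ≤ f t₁ t₂ g b) (t₁ t₂ : ℝ) (g : Γ) :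
    Summable (uu f t₁ t₂ g) :=
  Summable.of_nonneg_of_le (fun b => (uu_pos (f_pos hw lo) t₁ t₂ g b).le)
    (fun b => uu_le hw lo t₁ t₂ g b) (hs.mul_left _)

lemma tsum_uu_pos (hf : ∀ t₁ t₂ g b, 0 < f t₁ t₂ g b) {t₁ t₂ : ℝ} {g : Γ}
    (hs : Summable (uu f t₁ t₂ g)) : 0 < ∑' b, uu f t₁ t₂ g b :=
  hs.tsum_pos (fun b => (uu_pos hf t₁ t₂ g b).le) 1 (uu_pos hf t₁ t₂ g 1)

lemma be_nonneg (hf : ∀ t₁ t₂ g b, 0 < f t₁ t₂ g b) (t₁ t₂ : ℝ) (g b : Γ) :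
    0 ≤ be f t₁ t₂ g b :=
  div_nonneg (uu_pos hf t₁ t₂ g b).le (tsum_nonneg fun b => (uu_pos hf t₁ t₂ g b).le)

lemma be_hasSum (hf : ∀ t₁ t₂ g b, 0 < f t₁ t₂ g b) {t₁ t₂ : ℝ} {g : Γ}
    (hs : Summable (uu f t₁ t₂ g)) : HasSum (be f t₁ t₂ g) 1 := by
  have := hs.hasSum.div_const (∑' b, uu f t₁ t₂ g b)
  rwa [div_self (tsum_uu_pos hf hs).ne'] at this

lemma be_sum_le (hf : ∀ t₁ t₂ g b, 0 < f t₁ t₂ g b) {t₁ t₂ : ℝ} {g : Γ}
    (hs : Summable (uu f t₁ t₂ g)) (T : Finset Γ) : ∑ b ∈ T, be f t₁ t₂ g b ≤ 1 :=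
  sum_le_hasSum T (fun b _ => be_nonneg hf t₁ t₂ g b) (be_hasSum hf hs)

/-- The sums of the normalised weights converge uniformly. -/
lemma be_le (hw : ∀ b, 0 < w b)
    (lo : ∀ t₁ t₂ g b, Real.exp (-t₁ - t₂) * w b ≤ f t₁ t₂ g b)
    (up : ∀ t₁ t₂ g b, 0 ≤ t₁ → 0 ≤ t₂ → f t₁ t₂ g b ≤ 3 * w b)
    (hs : Summable fun b => ((w b) ^ 9)⁻¹) {t₁ t₂ T : ℝ} (h1 : 0 ≤ t₁) (h2 : 0 ≤ t₂)
    (h3 : t₁ ≤ T) (h4 : t₂ ≤ T) (g b : Γ) :
    be f t₁ t₂ g b ≤ (3 * w 1) ^ 9 * (Real.exp (T + T)) ^ 9 * ((w b) ^ 9)⁻¹ := by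
  have hf := f_pos hw lo
  have hsu := uu_summable hw hs lo t₁ t₂ g
  have hZ : ((3 * w 1) ^ 9)⁻¹ ≤ ∑' b, uu f t₁ t₂ g b := by
    have e1 : ((3 * w 1) ^ 9)⁻¹ ≤ uu f t₁ t₂ g 1 :=
      inv_anti₀ (pow_pos (hf _ _ _ _) 9)
        (pow_le_pow_left₀ (hf _ _ _ _).le (up t₁ t₂ g 1 h1 h2) 9)
    exact e1.trans (hsu.le_tsum 1 fun j _ => (uu_pos hf t₁ t₂ g j).le)
  have hpos : 0 < (3 * w 1) ^ 9 := pow_pos (mul_pos (by norm_num) (hw 1)) 9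
  have hinv : (∑' b, uu f t₁ t₂ g b)⁻¹ ≤ (3 * w 1) ^ 9 := by
    have := inv_anti₀ (inv_pos.2 hpos) hZ
    rwa [inv_inv] at this
  have hwb : 0 < ((w b) ^ 9)⁻¹ := inv_pos.2 (pow_pos (hw b) 9)
  have hu : uu f t₁ t₂ g b ≤ (Real.exp (T + T)) ^ 9 * ((w b) ^ 9)⁻¹ :=
    (uu_le hw lo t₁ t₂ g b).trans (mul_le_mul_of_nonneg_right
      (pow_le_pow_left₀ (Real.exp_pos _).le (Real.exp_le_exp.2 (by linarith)) 9) hwb.le)
  have hZ0 := tsum_uu_pos hf hsu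
  calc be f t₁ t₂ g b = uu f t₁ t₂ g b * (∑' b, uu f t₁ t₂ g b)⁻¹ := div_eq_mul_inv _ _
    _ ≤ ((Real.exp (T + T)) ^ 9 * ((w b) ^ 9)⁻¹) * (3 * w 1) ^ 9 :=
        mul_le_mul hu hinv (inv_pos.2 hZ0).le (by positivity)
    _ = _ := by ring

lemma pow_inv_le {x y r : ℝ} (hx : 0 < x) (hy : 0 < y) (hr : 0 < r) (h : x ≤ r * y) :
    (y ^ 9)⁻¹ ≤ r ^ 9 * (x ^ 9)⁻¹ := by
  have h1 : x ^ 9 ≤ (r * y) ^ 9 := pow_le_pow_left₀ hx.le h 9
  rw [mul_pow] at h1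
  rw [← div_eq_mul_inv, le_div_iff₀ (pow_pos hx 9), inv_mul_le_iff₀ (pow_pos hy 9)]
  linarith

lemma cmp {ι : Type*} [Nonempty ι] (F G : ι → ℝ) (hF : ∀ i, 0 < F i) (hG : ∀ i, 0 < G i)
    (sF : Summable fun i => ((F i) ^ 9)⁻¹) (sG : Summable fun i => ((G i) ^ 9)⁻¹) {p r : ℝ}
    (hp : 0 < p) (hr : 1 ≤ r) (h1 : ∀ i, p * F i ≤ r * G i) (h2 : ∀ i, G i ≤ r * (p * F i))
    (T : Finset ι) :
    ∑ i ∈ T, |((G i) ^ 9)⁻¹ / ∑' j, ((G j) ^ 9)⁻¹ - ((F i) ^ 9)⁻¹ / ∑' j, ((F j) ^ 9)⁻¹|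
      ≤ (r ^ 9) ^ 2 - 1 := by
  have hr0 : 0 < r := by linarith
  refine norm_compare (fun i => ((F i) ^ 9)⁻¹) (fun i => ((G i) ^ 9)⁻¹)
    (fun i => inv_pos.2 (pow_pos (hF i) 9)) (fun i => inv_pos.2 (pow_pos (hG i) 9)) sF sG
    (c := (p ^ 9)⁻¹) (inv_pos.2 (pow_pos hp 9)) (one_le_pow₀ hr) ?_ ?_ T
  · intro i
    have := pow_inv_le (hG i) (mul_pos hp (hF i)) hr0 (h2 i)
    rwa [mul_pow, mul_inv] at this
  · intro i
    have := pow_inv_le (mul_pos hp (hF i)) (hG i) hr0 (h1 i)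
    rwa [mul_pow, mul_inv] at this

lemma be_left (hf : ∀ t₁ t₂ g b, 0 < f t₁ t₂ g b) (hs : ∀ t₁ t₂ g, Summable (uu f t₁ t₂ g))
    {s g : Γ} {p r t₁ t₂ t₁' t₂' : ℝ} (hp : 0 < p) (hr : 1 ≤ r)
    (h1 : ∀ b, p * f t₁' t₂' (s * g) (s * b) ≤ r * f t₁ t₂ g b)
    (h2 : ∀ b, f t₁ t₂ g b ≤ r * (p * f t₁' t₂' (s * g) (s * b))) (T : Finset Γ) :
    ∑ b ∈ T, |be f t₁ t₂ g b - be f t₁' t₂' (s * g) (s * b)| ≤ (r ^ 9) ^ 2 - 1 := by
  have hs' : Summable fun b => ((f t₁' t₂' (s * g) (s * b)) ^ 9)⁻¹ :=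
    (Equiv.mulLeft s).summable_iff.2 (hs t₁' t₂' (s * g))
  have e : ∑' b, ((f t₁' t₂' (s * g) (s * b)) ^ 9)⁻¹ = ∑' b, uu f t₁' t₂' (s * g) b :=
    (Equiv.mulLeft s).tsum_eq (uu f t₁' t₂' (s * g))
  have := cmp (fun b => f t₁' t₂' (s * g) (s * b)) (fun b => f t₁ t₂ g b)
    (fun b => hf _ _ _ _) (fun b => hf _ _ _ _) hs' (hs t₁ t₂ g) hp hr h1 h2 T
  rw [e] at this
  exact this

lemma be_right (hf : ∀ t₁ t₂ g b, 0 < f t₁ t₂ g b) (hs : ∀ t₁ t₂ g, Summable (uu f t₁ t₂ g))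
    {g g' : Γ} {r t₁ t₂ : ℝ} (hr : 1 ≤ r)
    (h1 : ∀ b, f t₁ t₂ g' b ≤ r * f t₁ t₂ g b)
    (h2 : ∀ b, f t₁ t₂ g b ≤ r * f t₁ t₂ g' b) (T : Finset Γ) :
    ∑ b ∈ T, |be f t₁ t₂ g b - be f t₁ t₂ g' b| ≤ (r ^ 9) ^ 2 - 1 := by
  exact cmp (fun b => f t₁ t₂ g' b) (fun b => f t₁ t₂ g b)
    (fun b => hf _ _ _ _) (fun b => hf _ _ _ _) (hs t₁ t₂ g') (hs t₁ t₂ g) (p := 1) one_pos hr
    (fun b => by rw [one_mul]; exact h1 b) (fun b => by rw [one_mul]; exact h2 b) T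

lemma nu_nonneg (hf : ∀ t₁ t₂ g b, 0 < f t₁ t₂ g b) (L h : ℝ) (K : ℕ) (g b : Γ) :
    0 ≤ nu f L h K g b :=
  div_nonneg (sum_nonneg fun _ _ => sum_nonneg fun _ _ => be_nonneg hf _ _ _ _) (by positivity)

/-- Averages of families with sums in a given convex range. -/
lemma nu_sum (L h : ℝ) {K : ℕ} (T : Finset Γ) (g : Γ) :
    ∑ b ∈ T, nu f L h K g b =
      (∑ i ∈ range K, ∑ j ∈ range K, ∑ b ∈ T, be f (L + (i : ℤ) * h) (L + (j : ℤ) * h) g b)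
        / (K : ℝ) ^ 2 := by
  unfold nu
  rw [← sum_div, sum_comm]
  congr 1
  refine sum_congr rfl fun i _ => ?_
  rw [sum_comm]

lemma nu_sum_le (hf : ∀ t₁ t₂ g b, 0 < f t₁ t₂ g b) (hs : ∀ t₁ t₂ g, Summable (uu f t₁ t₂ g))
    (L h : ℝ) {K : ℕ} (hK : 0 < K) (T : Finset Γ) (g : Γ) : ∑ b ∈ T, nu f L h K g b ≤ 1 := by
  rw [nu_sum, div_le_one (by positivity)]
  calc ∑ i ∈ range K, ∑ j ∈ range K, ∑ b ∈ T, be f (L + (i : ℤ) * h) (L + (j : ℤ) * h) g b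
      ≤ ∑ i ∈ range K, ∑ j ∈ range K, (1 : ℝ) :=
        sum_le_sum fun i _ => sum_le_sum fun j _ => be_sum_le hf (hs _ _ _) T
    _ = (K : ℝ) ^ 2 := by simp [sq]

lemma le_nu_sum (L h : ℝ) {K : ℕ} (hK : 0 < K) (T : Finset Γ) (g : Γ) {a : ℝ}
    (ha : ∀ i j : ℕ, i < K → j < K →
      a ≤ ∑ b ∈ T, be f (L + (i : ℤ) * h) (L + (j : ℤ) * h) g b) :
    a ≤ ∑ b ∈ T, nu f L h K g b := by
  rw [nu_sum, le_div_iff₀ (by positivity)]
  calc a * (K : ℝ) ^ 2 = ∑ i ∈ range K, ∑ j ∈ range K, a := by simp [sq]; ring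
    _ ≤ _ := sum_le_sum fun i hi => sum_le_sum fun j hj =>
        ha i j (mem_range.1 hi) (mem_range.1 hj)

lemma nu_left (hf : ∀ t₁ t₂ g b, 0 < f t₁ t₂ g b) (hs : ∀ t₁ t₂ g, Summable (uu f t₁ t₂ g))
    {L h : ℝ} {K : ℕ} (hK : 0 < K) {s g : Γ} {p r : ℝ} (hp : 0 < p) (hr : 1 ≤ r) (m n : ℤ)
    (h1 : ∀ i j : ℕ, i < K → j < K → ∀ b,
      p * f (L + (((i : ℤ) + m : ℤ) : ℝ) * h) (L + (((j : ℤ) + n : ℤ) : ℝ) * h) (s * g) (s * b)
        ≤ r * f (L + (i : ℤ) * h) (L + (j : ℤ) * h) g b)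
    (h2 : ∀ i j : ℕ, i < K → j < K → ∀ b,
      f (L + (i : ℤ) * h) (L + (j : ℤ) * h) g b ≤ r * (p *
        f (L + (((i : ℤ) + m : ℤ) : ℝ) * h) (L + (((j : ℤ) + n : ℤ) : ℝ) * h) (s * g) (s * b)))
    (T : Finset Γ) :
    ∑ b ∈ T, |nu f L h K (s * g) (s * b) - nu f L h K g b| ≤
      ((r ^ 9) ^ 2 - 1) + 2 * (|(m : ℝ)| + |(n : ℝ)|) / K := by
  classical
  have hK' : (0 : ℝ) < K := by exact_mod_cast hK
  set F : ℤ → ℤ → Γ → ℝ := fun x y b => be f (L + x * h) (L + y * h) (s * g) (s * b) with hF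
  set G : ℤ → ℤ → Γ → ℝ := fun x y b => be f (L + x * h) (L + y * h) g b with hG
  have hF1 : ∀ x y, ∑ b ∈ T, |F x y b| ≤ 1 := by
    intro x y
    have e1 : ∑ b ∈ T, |F x y b| = ∑ b ∈ T.image (fun b => s * b),
        be f (L + x * h) (L + y * h) (s * g) b := by
      rw [sum_image fun a _ b _ hab => mul_left_cancel hab]
      exact sum_congr rfl fun b _ => abs_of_nonneg (be_nonneg hf _ _ _ _)
    rw [e1]
    exact be_sum_le hf (hs _ _ _) _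
  have hgrid := grid_shift F T hF1 K m n
  have hpt : ∀ b ∈ T, |nu f L h K (s * g) (s * b) - nu f L h K g b| ≤
      (|∑ x ∈ range K, ∑ y ∈ range K, (F (x + m) (y + n) b - F x y b)| +
        ∑ x ∈ range K, ∑ y ∈ range K, |G x y b - F (x + m) (y + n) b|) / (K : ℝ) ^ 2 := by
    intro b _
    have e2 : nu f L h K (s * g) (s * b) - nu f L h K g b =
        (-(∑ x ∈ range K, ∑ y ∈ range K, (F (x + m) (y + n) b - F x y b)) -
          ∑ x ∈ range K, ∑ y ∈ range K, (G x y b - F (x + m) (y + n) b)) / (K : ℝ) ^ 2 := by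
      simp only [nu, sum_sub_distrib, hF, hG]
      ring
    rw [e2, abs_div, abs_of_pos (pow_pos hK' 2)]
    refine div_le_div_of_nonneg_right ?_ (pow_pos hK' 2).le
    refine (abs_sub _ _).trans ?_
    rw [abs_neg]
    refine add_le_add le_rfl ?_
    exact (abs_sum_le_sum_abs _ _).trans (sum_le_sum fun x _ => abs_sum_le_sum_abs _ _)
  calc ∑ b ∈ T, |nu f L h K (s * g) (s * b) - nu f L h K g b|
      ≤ ∑ b ∈ T, (|∑ x ∈ range K, ∑ y ∈ range K, (F (x + m) (y + n) b - F x y b)| +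
        ∑ x ∈ range K, ∑ y ∈ range K, |G x y b - F (x + m) (y + n) b|) / (K : ℝ) ^ 2 :=
        sum_le_sum hpt
    _ = (∑ b ∈ T, |∑ x ∈ range K, ∑ y ∈ range K, (F (x + m) (y + n) b - F x y b)| +
        ∑ x ∈ range K, ∑ y ∈ range K, ∑ b ∈ T, |G x y b - F (x + m) (y + n) b|)
          / (K : ℝ) ^ 2 := by
        rw [← sum_div, sum_add_distrib]
        congr 2
        rw [sum_comm]
        exact sum_congr rfl fun x _ => sum_comm
    _ ≤ (2 * K * (|m| + |n|) + ∑ x ∈ range K, ∑ y ∈ range K, ((r ^ 9) ^ 2 - 1))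
          / (K : ℝ) ^ 2 := by
        refine div_le_div_of_nonneg_right (add_le_add ?_ ?_) (pow_pos hK' 2).le
        · exact_mod_cast hgrid
        · exact sum_le_sum fun x hx => sum_le_sum fun y hy =>
            be_left hf hs hp hr (h1 x y (mem_range.1 hx) (mem_range.1 hy))
              (h2 x y (mem_range.1 hx) (mem_range.1 hy)) T
    _ = _ := by
        simp only [sum_const, card_range, nsmul_eq_mul, Int.cast_abs]
        field_simp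
        ring

lemma exists_bound {α : Type*} (S : Finset α) (C : α → ℝ) : ∃ C0 : ℝ, 0 ≤ C0 ∧ ∀ s ∈ S, C s ≤ C0 := by
  obtain ⟨M, hM⟩ := (S.image C).exists_le
  exact ⟨max M 0, le_max_right _ _, fun s hs =>
    (hM _ (mem_image_of_mem C hs)).trans (le_max_left _ _)⟩

/-- Uniform tail bound. -/
lemma exists_B (hw : ∀ b, 0 < w b)
    (lo : ∀ t₁ t₂ g b, Real.exp (-t₁ - t₂) * w b ≤ f t₁ t₂ g b)
    (up : ∀ t₁ t₂ g b, 0 ≤ t₁ → 0 ≤ t₂ → f t₁ t₂ g b ≤ 3 * w b)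
    (hs : Summable fun b => ((w b) ^ 9)⁻¹) (T : ℝ) {τ : ℝ} (hτ : 0 < τ) :
    ∃ B : Finset Γ, ∀ (t₁ t₂ : ℝ), 0 ≤ t₁ → 0 ≤ t₂ → t₁ ≤ T → t₂ ≤ T → ∀ g,
      1 - τ ≤ ∑ b ∈ B, be f t₁ t₂ g b := by
  have hf := f_pos hw lo
  have hsu := uu_summable hw hs lo
  set c : ℝ := (3 * w 1) ^ 9 * (Real.exp (T + T)) ^ 9 with hc
  have hcs : Summable fun b => c * ((w b) ^ 9)⁻¹ := hs.mul_left c
  have h1 : ∀ᶠ B : Finset Γ in Filter.atTop,
      (∑' b, c * ((w b) ^ 9)⁻¹) - τ < ∑ b ∈ B, c * ((w b) ^ 9)⁻¹ :=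
    hcs.hasSum.eventually (lt_mem_nhds (by linarith))
  obtain ⟨B, hB⟩ := h1.exists
  refine ⟨B, fun t₁ t₂ a1 a2 a3 a4 g => ?_⟩
  have h2 : HasSum (fun b => c * ((w b) ^ 9)⁻¹ - be f t₁ t₂ g b)
      ((∑' b, c * ((w b) ^ 9)⁻¹) - 1) := hcs.hasSum.sub (be_hasSum hf (hsu t₁ t₂ g))
  have h3 := sum_le_hasSum B (fun b _ => sub_nonneg.2 (be_le hw lo up hs a1 a2 a3 a4 g b)) h2
  rw [sum_sub_distrib] at h3
  linarith

theorem asm [DecidableEq Γ] (D : ℝ → Γ → Prop) (hD : ∀ R R' g, R ≤ R' → D R' g → D R g)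
    (hw : ∀ b, 0 < w b) (hsum : Summable fun b => ((w b) ^ 9)⁻¹)
    (lo : ∀ t₁ t₂ g b, Real.exp (-t₁ - t₂) * w b ≤ f t₁ t₂ g b)
    (up : ∀ t₁ t₂ g b, 0 ≤ t₁ → 0 ≤ t₂ → f t₁ t₂ g b ≤ 3 * w b)
    (lip : ∀ t₁ t₂ d₁ d₂ g b,
      f (t₁ + d₁) (t₂ + d₂) g b ≤ Real.exp (|d₁| + |d₂|) * f t₁ t₂ g b)
    (left : ∀ s : Γ, ∃ C : ℝ, ∀ ρ : ℝ, 0 < ρ → ∃ L : ℝ, ∀ T : ℝ, ∃ R : ℝ, ∀ g, D R g →
      ∃ p σ₁ σ₂ : ℝ, 0 < p ∧ |σ₁| ≤ C ∧ |σ₂| ≤ C ∧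
        ∀ t₁ t₂, L ≤ t₁ → t₁ ≤ T → L ≤ t₂ → t₂ ≤ T → ∀ b,
          |p * f (t₁ + σ₁) (t₂ + σ₂) (s * g) (s * b) - f t₁ t₂ g b| ≤ ρ * f t₁ t₂ g b)
    (right : ∀ (t : Γ) (T η : ℝ), 0 < η → ∃ R : ℝ, ∀ g, D R g → ∀ b t₁ t₂, 0 ≤ t₁ → t₁ ≤ T →
      0 ≤ t₂ → t₂ ≤ T → |f t₁ t₂ (g * t) b - f t₁ t₂ g b| ≤ η * f t₁ t₂ g b)
    (S : Finset Γ) {ε : ℝ} (hε : 0 < ε) :
    ∃ (B : Finset Γ) (μ : Γ → Γ → ℝ) (R : ℝ), (∀ b g, 0 ≤ μ b g) ∧ (∀ b ∉ B, ∀ g, μ b g = 0) ∧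
      (∀ g, ∑ b ∈ B, μ b g ≤ 1) ∧ (∀ g, 1 - ε ≤ ∑ b ∈ B, μ b g) ∧
      (∀ s ∈ S, ∀ g : Γ, D R g →
        ∑ b ∈ B ∪ B.image (fun b => s⁻¹ * b), |μ (s * b) (s * g) - μ b g| ≤ ε) ∧
      (∀ b t : Γ, ∀ δ : ℝ, 0 < δ → ∃ R' : ℝ, ∀ g : Γ, D R' g → |μ b (g * t) - μ b g| ≤ δ) := by
  have hf := f_pos hw lo
  have hsu := uu_summable hw hsum lo
  -- constants
  have hexp : ∀ x : ℝ, 0 < x → ((Real.exp (Real.log (1 + x) / 18)) ^ 9) ^ 2 - 1 = x := by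
    intro x hx
    rw [← pow_mul, ← Real.exp_nat_mul]
    have : ((9 * 2 : ℕ) : ℝ) * (Real.log (1 + x) / 18) = Real.log (1 + x) := by
      push_cast; ring
    rw [this, Real.exp_log (by linarith)]
    ring
  have h2e : ∀ x : ℝ, 1 + (1 - Real.exp (-x)) ≤ Real.exp x := by
    intro x
    have a1 := Real.exp_pos x
    have a2 := Real.exp_pos (-x)
    have a3 : Real.exp x * Real.exp (-x) = 1 := by rw [← Real.exp_add]; simp
    nlinarith [sq_nonneg (Real.exp x - 1)]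
  set δ₀ : ℝ := Real.log (1 + ε / 4) / 18 with hδ₀
  have hδ₀p : 0 < δ₀ := div_pos (Real.log_pos (by linarith)) (by norm_num)
  set r : ℝ := Real.exp δ₀ with hr
  have hr1 : 1 ≤ r := Real.one_le_exp hδ₀p.le
  have hr18 : (r ^ 9) ^ 2 - 1 = ε / 4 := hexp (ε / 4) (by linarith)
  set h : ℝ := δ₀ / 4 with hh
  have hhp : 0 < h := by rw [hh]; linarith
  set ρ₀ : ℝ := 1 - Real.exp (-(δ₀ / 2)) with hρ₀
  have hρ₀p : 0 < ρ₀ := by
    rw [hρ₀, sub_pos, Real.exp_lt_one_iff]; linarith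
  choose C hC using left
  choose L hL using fun s => hC s ρ₀ hρ₀p
  obtain ⟨C₀, hC₀, hCC⟩ := exists_bound S C
  obtain ⟨L₀, hL₀, hLL⟩ := exists_bound S L
  obtain ⟨K, hK⟩ := exists_nat_gt (16 * (C₀ / h + 1) / ε)
  have hM : 0 < C₀ / h + 1 := by positivity
  have hKp' : (0 : ℝ) < K := lt_trans (by positivity) hK
  have hKp : 0 < K := by exact_mod_cast hKp'
  set T : ℝ := L₀ + K * h with hT
  choose R hR using fun s => hL s T
  obtain ⟨R₀, -, hRR⟩ := exists_bound S R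
  obtain ⟨B, hB⟩ := exists_B hw lo up hsum T (τ := ε / 4) (by linarith)
  -- grid points
  have hgr : ∀ i : ℕ, i < K → L₀ ≤ L₀ + ((i : ℤ) : ℝ) * h ∧ L₀ + ((i : ℤ) : ℝ) * h ≤ T := by
    intro i hi
    have a1 : ((i : ℤ) : ℝ) = (i : ℝ) := by push_cast; rfl
    have a2 : (i : ℝ) ≤ K := by exact_mod_cast hi.le
    rw [a1, hT]
    constructor
    · have : 0 ≤ (i : ℝ) * h := by positivity
      linarith
    · have : (i : ℝ) * h ≤ K * h := mul_le_mul_of_nonneg_right a2 hhp.le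
      linarith
  have hmass : ∀ g, 1 - ε / 4 ≤ ∑ b ∈ B, nu f L₀ h K g b := fun g =>
    le_nu_sum L₀ h hKp B g fun i j hi hj =>
      hB _ _ (hL₀.trans (hgr i hi).1) (hL₀.trans (hgr j hj).1) (hgr i hi).2 (hgr j hj).2 g
  have hle1 : ∀ g (T : Finset Γ), ∑ b ∈ T, nu f L₀ h K g b ≤ 1 := fun g T =>
    nu_sum_le hf hsu L₀ h hKp T g
  have htail : ∀ g (T : Finset Γ), ∑ b ∈ T, (if b ∈ B then 0 else nu f L₀ h K g b) ≤ ε / 4 := by
    intro g T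
    have e1 : ∑ b ∈ T, (if b ∈ B then 0 else nu f L₀ h K g b) =
        ∑ b ∈ T.filter (fun b => b ∉ B), nu f L₀ h K g b := by
      rw [sum_filter]
      exact sum_congr rfl fun b _ => by by_cases hb : b ∈ B <;> simp [hb]
    have hdis : Disjoint (T.filter (fun b => b ∉ B)) B :=
      disjoint_left.2 fun b hb hb' => (mem_filter.1 hb).2 hb'
    have e2 := hle1 g (T.filter (fun b => b ∉ B) ∪ B)
    rw [sum_union hdis] at e2
    have e3 := hmass g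
    rw [e1]
    linarith
  refine ⟨B, fun b g => if b ∈ B then nu f L₀ h K g b else 0, R₀, ?_, ?_, ?_, ?_, ?_, ?_⟩
  · intro b g
    dsimp only
    split_ifs
    · exact nu_nonneg hf _ _ _ _ _
    · exact le_rfl
  · intro b hb g
    simp [hb]
  · intro g
    rw [sum_congr rfl fun b hb => if_pos hb]
    exact hle1 g B
  · intro g
    rw [sum_congr rfl fun b hb => if_pos hb]
    linarith [hmass g]
  · intro s hs g hg
    have hg' : D (R s) g := hD _ _ g (hRR s hs) hg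
    obtain ⟨p, σ₁, σ₂, hp, hσ₁, hσ₂, hest⟩ := hR s g hg'
    have hfl : ∀ σ : ℝ, |σ| ≤ C s → |((⌊σ / h⌋ : ℤ) : ℝ)| ≤ C₀ / h + 1 ∧
        |σ - (⌊σ / h⌋ : ℤ) * h| ≤ h := by
      intro σ hσ
      have a1 := Int.floor_le (σ / h)
      have a2 := Int.lt_floor_add_one (σ / h)
      have a3 : |σ / h| ≤ C₀ / h := by
        rw [abs_div, abs_of_pos hhp]
        exact div_le_div_of_nonneg_right (hσ.trans (hCC s hs)) hhp.le
      have a4 := abs_le.1 a3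
      have b1 : σ = (σ / h) * h := by field_simp
      constructor
      · rw [abs_le]; constructor <;> linarith
      · rw [abs_le]
        constructor
        · nlinarith
        · nlinarith
    obtain ⟨hm, hd₁⟩ := hfl σ₁ hσ₁
    obtain ⟨hn, hd₂⟩ := hfl σ₂ hσ₂
    set m : ℤ := ⌊σ₁ / h⌋ with hmdef
    set n : ℤ := ⌊σ₂ / h⌋ with hndef
    have hrr : Real.exp (δ₀ / 2) * Real.exp (δ₀ / 2) = r := by
      rw [← Real.exp_add]; congr 1; ring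
    have hee : Real.exp (-(δ₀ / 2)) * Real.exp (δ₀ / 2) = 1 := by
      rw [← Real.exp_add]; simp
    -- comparison of the two gauges
    have key : ∀ i j : ℕ, i < K → j < K → ∀ b,
        p * f (L₀ + (((i : ℤ) + m : ℤ) : ℝ) * h) (L₀ + (((j : ℤ) + n : ℤ) : ℝ) * h)
            (s * g) (s * b) ≤ r * f (L₀ + (i : ℤ) * h) (L₀ + (j : ℤ) * h) g b ∧
        f (L₀ + (i : ℤ) * h) (L₀ + (j : ℤ) * h) g b ≤ r * (p *
          f (L₀ + (((i : ℤ) + m : ℤ) : ℝ) * h) (L₀ + (((j : ℤ) + n : ℤ) : ℝ) * h)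
            (s * g) (s * b)) := by
      intro i j hi hj b
      have hi' := hgr i hi
      have hj' := hgr j hj
      have h0 := hest (L₀ + ((i : ℤ) : ℝ) * h) (L₀ + ((j : ℤ) : ℝ) * h)
        ((hLL s hs).trans hi'.1) hi'.2 ((hLL s hs).trans hj'.1) hj'.2 b
      set t₁ : ℝ := L₀ + ((i : ℤ) : ℝ) * h with ht₁
      set t₂ : ℝ := L₀ + ((j : ℤ) : ℝ) * h with ht₂
      have q1 : L₀ + (((i : ℤ) + m : ℤ) : ℝ) * h = (t₁ + σ₁) + (-(σ₁ - m * h)) := by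
        rw [ht₁]; push_cast; ring
      have q2 : L₀ + (((j : ℤ) + n : ℤ) : ℝ) * h = (t₂ + σ₂) + (-(σ₂ - n * h)) := by
        rw [ht₂]; push_cast; ring
      have l1 := lip (t₁ + σ₁) (t₂ + σ₂) (-(σ₁ - m * h)) (-(σ₂ - n * h)) (s * g) (s * b)
      have l2 := lip ((t₁ + σ₁) + (-(σ₁ - m * h))) ((t₂ + σ₂) + (-(σ₂ - n * h)))
        (σ₁ - m * h) (σ₂ - n * h) (s * g) (s * b)
      have q3 : (t₁ + σ₁) + (-(σ₁ - m * h)) + (σ₁ - m * h) = t₁ + σ₁ := by ring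
      have q4 : (t₂ + σ₂) + (-(σ₂ - n * h)) + (σ₂ - n * h) = t₂ + σ₂ := by ring
      rw [q3, q4] at l2
      rw [abs_neg, abs_neg] at l1
      rw [q1, q2]
      set X := f ((t₁ + σ₁) + (-(σ₁ - m * h))) ((t₂ + σ₂) + (-(σ₂ - n * h))) (s * g) (s * b)
      set Y := f (t₁ + σ₁) (t₂ + σ₂) (s * g) (s * b)
      set Z := f t₁ t₂ g b
      have hX : 0 < X := hf _ _ _ _
      have hY : 0 < Y := hf _ _ _ _
      have hZ : 0 < Z := hf _ _ _ _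
      have hle : Real.exp (|σ₁ - m * h| + |σ₂ - n * h|) ≤ Real.exp (δ₀ / 2) :=
        Real.exp_le_exp.2 (by rw [hh] at hd₁ hd₂; linarith)
      have l1' : X ≤ Real.exp (δ₀ / 2) * Y := l1.trans (mul_le_mul_of_nonneg_right hle hY.le)
      have l2' : Y ≤ Real.exp (δ₀ / 2) * X := l2.trans (mul_le_mul_of_nonneg_right hle hX.le)
      have h0' := abs_le.1 h0
      have u1 : p * Y ≤ Real.exp (δ₀ / 2) * Z := by
        have := h2e (δ₀ / 2)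
        have : (1 + ρ₀) * Z ≤ Real.exp (δ₀ / 2) * Z := mul_le_mul_of_nonneg_right this hZ.le
        linarith [h0'.2]
      have u2 : Z ≤ Real.exp (δ₀ / 2) * (p * Y) := by
        have e1 : Real.exp (-(δ₀ / 2)) * Z ≤ p * Y := by
          have : Real.exp (-(δ₀ / 2)) = 1 - ρ₀ := by rw [hρ₀]; ring
          rw [this]; linarith [h0'.1]
        have e2 := mul_le_mul_of_nonneg_left e1 (Real.exp_pos (δ₀ / 2)).le
        have e3 : Real.exp (δ₀ / 2) * (Real.exp (-(δ₀ / 2)) * Z) = Z := by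
          rw [← mul_assoc, mul_comm (Real.exp (δ₀ / 2)), hee, one_mul]
        rwa [e3] at e2
      constructor
      · calc p * X ≤ p * (Real.exp (δ₀ / 2) * Y) := mul_le_mul_of_nonneg_left l1' hp.le
          _ = Real.exp (δ₀ / 2) * (p * Y) := by ring
          _ ≤ Real.exp (δ₀ / 2) * (Real.exp (δ₀ / 2) * Z) :=
              mul_le_mul_of_nonneg_left u1 (Real.exp_pos _).le
          _ = r * Z := by rw [← mul_assoc, hrr]
      · calc Z ≤ Real.exp (δ₀ / 2) * (p * Y) := u2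
          _ ≤ Real.exp (δ₀ / 2) * (p * (Real.exp (δ₀ / 2) * X)) :=
              mul_le_mul_of_nonneg_left (mul_le_mul_of_nonneg_left l2' hp.le)
                (Real.exp_pos _).le
          _ = r * (p * X) := by rw [← hrr]; ring
    have hmain := nu_left hf hsu hKp hp hr1 m n (fun i j hi hj b => (key i j hi hj b).1)
      (fun i j hi hj b => (key i j hi hj b).2) (L := L₀)
      (B ∪ B.image (fun b => s⁻¹ * b))
    have hbound : 2 * (|(m : ℝ)| + |(n : ℝ)|) / K ≤ ε / 4 := by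
      rw [div_le_iff₀ hKp']
      rw [div_lt_iff₀ hε] at hK
      linarith
    rw [hr18] at hmain
    set B' := B ∪ B.image (fun b => s⁻¹ * b) with hB'
    have hpt : ∀ b ∈ B', |(if s * b ∈ B then nu f L₀ h K (s * g) (s * b) else 0) -
        (if b ∈ B then nu f L₀ h K g b else 0)| ≤
        |nu f L₀ h K (s * g) (s * b) - nu f L₀ h K g b| +
          ((if s * b ∈ B then 0 else nu f L₀ h K (s * g) (s * b)) +
            (if b ∈ B then 0 else nu f L₀ h K g b)) := by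
      intro b _
      have n1 := nu_nonneg hf L₀ h K (s * g) (s * b)
      have n2 := nu_nonneg hf L₀ h K g b
      set x := nu f L₀ h K (s * g) (s * b)
      set y := nu f L₀ h K g b
      have n3 := abs_nonneg (x - y)
      by_cases c1 : s * b ∈ B <;> by_cases c2 : b ∈ B <;> simp only [c1, c2, if_true, if_false]
      · linarith
      · rw [sub_zero, abs_of_nonneg n1]
        have := le_abs_self (x - y)
        linarith
      · rw [zero_sub, abs_neg, abs_of_nonneg n2]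
        have := neg_abs_le (x - y)
        linarith
      · rw [sub_zero, abs_zero]; linarith
    refine (sum_le_sum hpt).trans ?_
    rw [sum_add_distrib, sum_add_distrib]
    have ht1 := htail g B'
    have ht2 : ∑ b ∈ B', (if s * b ∈ B then 0 else nu f L₀ h K (s * g) (s * b)) ≤ ε / 4 := by
      have := htail (s * g) (B'.image fun b => s * b)
      rwa [sum_image fun a _ b _ hab => mul_left_cancel hab] at this
    linarith
  · intro b t δ hδ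
    have hx : 0 < Real.log (1 + δ) / 18 := div_pos (Real.log_pos (by linarith)) (by norm_num)
    set x : ℝ := Real.log (1 + δ) / 18 with hxd
    have hη : 0 < 1 - Real.exp (-x) := by
      rw [sub_pos, Real.exp_lt_one_iff]; linarith
    obtain ⟨R', hR'⟩ := right t T (1 - Real.exp (-x)) hη
    refine ⟨R', fun g hg => ?_⟩
    by_cases hb : b ∈ B
    swap
    · simp only [hb, if_false, sub_zero, abs_zero]; exact hδ.le
    simp only [hb, if_true]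
    have hpt : ∀ i j : ℕ, i < K → j < K →
        |be f (L₀ + (i : ℤ) * h) (L₀ + (j : ℤ) * h) g b -
          be f (L₀ + (i : ℤ) * h) (L₀ + (j : ℤ) * h) (g * t) b| ≤ δ := by
      intro i j hi hj
      have hi' := hgr i hi
      have hj' := hgr j hj
      have hall : ∀ b, |f (L₀ + (i : ℤ) * h) (L₀ + (j : ℤ) * h) (g * t) b -
          f (L₀ + (i : ℤ) * h) (L₀ + (j : ℤ) * h) g b| ≤
          (1 - Real.exp (-x)) * f (L₀ + (i : ℤ) * h) (L₀ + (j : ℤ) * h) g b := fun b =>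
        hR' g hg b _ _ (hL₀.trans hi'.1) hi'.2 (hL₀.trans hj'.1) hj'.2
      have := be_right hf hsu (g := g) (g' := g * t) (t₁ := L₀ + (i : ℤ) * h)
        (t₂ := L₀ + (j : ℤ) * h) (Real.one_le_exp hx.le) (fun b => ?_) (fun b => ?_) {b}
      · rw [sum_singleton, hexp δ hδ] at this
        exact this
      · have a1 := (abs_le.1 (hall b)).2
        have a2 := mul_le_mul_of_nonneg_right (h2e x)
          (hf (L₀ + (i : ℤ) * h) (L₀ + (j : ℤ) * h) g b).le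
        linarith
      · have a1 := (abs_le.1 (hall b)).1
        have a2 : Real.exp (-x) * f (L₀ + (i : ℤ) * h) (L₀ + (j : ℤ) * h) g b ≤
            f (L₀ + (i : ℤ) * h) (L₀ + (j : ℤ) * h) (g * t) b := by linarith
        have a3 := mul_le_mul_of_nonneg_left a2 (Real.exp_pos x).le
        have a4 : Real.exp x * Real.exp (-x) = 1 := by rw [← Real.exp_add]; simp
        rw [← mul_assoc, a4, one_mul] at a3
        exact a3
    have e2 : nu f L₀ h K (g * t) b - nu f L₀ h K g b =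
        -(∑ i ∈ range K, ∑ j ∈ range K, (be f (L₀ + (i : ℤ) * h) (L₀ + (j : ℤ) * h) g b -
          be f (L₀ + (i : ℤ) * h) (L₀ + (j : ℤ) * h) (g * t) b)) / (K : ℝ) ^ 2 := by
      simp only [nu, sum_sub_distrib]
      ring
    rw [e2, abs_div, abs_neg, abs_of_pos (pow_pos hKp' 2), div_le_iff₀ (pow_pos hKp' 2)]
    calc |∑ i ∈ range K, ∑ j ∈ range K, (be f (L₀ + (i : ℤ) * h) (L₀ + (j : ℤ) * h) g b -
          be f (L₀ + (i : ℤ) * h) (L₀ + (j : ℤ) * h) (g * t) b)|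
        ≤ ∑ i ∈ range K, ∑ j ∈ range K, |be f (L₀ + (i : ℤ) * h) (L₀ + (j : ℤ) * h) g b -
          be f (L₀ + (i : ℤ) * h) (L₀ + (j : ℤ) * h) (g * t) b| :=
          (abs_sum_le_sum_abs _ _).trans (sum_le_sum fun i _ => abs_sum_le_sum_abs _ _)
      _ ≤ ∑ i ∈ range K, ∑ j ∈ range K, δ :=
          sum_le_sum fun i hi => sum_le_sum fun j hj =>
            hpt i j (mem_range.1 hi) (mem_range.1 hj)
      _ = δ * (K : ℝ) ^ 2 := by simp [sq]; ring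

end

end Vale.Agent.P092.H658
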