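import Mathlib
import Vale.Agent.P092.H132.T1

/-!
P092 (helper658), block T2 (amenability functions): shared definitions.
-/

namespace Vale.Agent.P092.H658

open Vale.Agent.P092.H553 Matrix

/-- Real `3 × 3` matrices. -/
abbrev M3 : Type := Matrix (Fin 3) (Fin 3) ℝ

/-- Real vectors. -/
abbrev V3 : Type := Fin 3 → ℝ

/-- The gauge `f_{t₁,t₂}(P,Q;b)`. -/
noncomputable def ff (P Q : M3) (t₁ t₂ : ℝ) (b : M3) : ℝ :=
  (bᵀ * P * b).trace + Real.exp (-t₂) * (hs b - (bᵀ * Q * b).trace)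
    + Real.exp (-t₁ - t₂) * hs b

/-- Orthonormal pairs. -/
def OP (e y : V3) : Prop := e ⬝ᵥ e = 1 ∧ y ⬝ᵥ y = 1 ∧ e ⬝ᵥ y = 0

/-- Normalised weights. -/
noncomputable def bet {X : Type*} (f : X → ℝ) (b : X) : ℝ :=
  ((f b)⁻¹) ^ 9 / ∑' x, ((f x)⁻¹) ^ 9

end Vale.Agent.P092.H658
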